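import Vale.Agent.P308.Count

namespace Vale.Agent.Results.P308.BoundedIndependence

open Vale.Agent.P308

universe u

/-- If `G` has a perfect matching and no triangular system of size `k + 1` (in particular, if its
independence number is at most `k`), then the number of near-perfect matchings is at most
`(n + 1) ^ (k ^ 2 + 2 * k)` times the number of perfect matchings. -/
theorem result :
    (∀ (k : ℕ) (V : Type u) [Fintype V] (G : SimpleGraph V),
      (∃ M : G.Subgraph, M.IsPerfectMatching) → ¬ HasTriangularSystem G (k + 1) →
        numNearPerfect G ≤ (Fintype.card V + 1) ^ (k ^ 2 + 2 * k) * numPerfect G) ∧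
    (∀ (k : ℕ) (V : Type u) [Fintype V] (G : SimpleGraph V),
      (∃ M : G.Subgraph, M.IsPerfectMatching) → G.indepNum ≤ k →
        numNearPerfect G ≤ (Fintype.card V + 1) ^ (k ^ 2 + 2 * k) * numPerfect G) := by
  refine ⟨fun k V _ G hpm hk => main_triangular k G hpm hk, fun k V _ G hpm hk => ?_⟩
  refine main_triangular k G hpm fun h => ?_
  have := h.indep
  omega

end Vale.Agent.Results.P308.BoundedIndependence
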