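import Vale.Agent.P308RAM.FinalThm

/-!
# P308: approximate counting of perfect matchings in general graphs
-/

namespace Vale.Agent.Results.P308.QuasiPoly

open Vale.Agent.P308RAM

/-- There is a quasi-polynomial randomized approximation scheme for the number of perfect
matchings, on the class of all finite simple graphs. -/
theorem result : ∃ prog : Vale.Agent.P328RAM.Cmd, IsQPRAS prog := qpras

end Vale.Agent.Results.P308.QuasiPoly
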